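import Vale.Agent.P223.MathlibUsed

namespace Vale.Agent.P223.K

open scoped ContDiff
open MeasureTheory Matrix

variable {n k : ℕ} {X : Type} [TopologicalSpace X]

/-- Charts with values in `ℝ^n`. -/
abbrev Ch (n : ℕ) (X : Type) [TopologicalSpace X] := OpenPartialHomeomorph X (Fin n → ℝ)

/-- `p` is in the domain of the chart `e` and has coordinates `x`. -/
def At (e : Ch n X) (p : X) (x : Fin n → ℝ) : Prop := p ∈ e.source ∧ e p = x

/-- Coordinate change. -/
def cm (e e' : Ch n X) (x : Fin n → ℝ) : Fin n → ℝ := e' (e.symm x)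

/-- `f` is smooth at `x`. -/
def Cinf (f : (Fin n → ℝ) → ℝ) (x : Fin n → ℝ) : Prop := ContDiffAt ℝ ∞ f x

/-- Partial derivative of `f` in the direction of the coordinate `i`. -/
noncomputable def pd (i : Fin n) (f : (Fin n → ℝ) → ℝ) (x : Fin n → ℝ) : ℝ :=
  deriv (fun t => f (Function.update x i t)) (x i)

/-- Jacobian matrix. -/
noncomputable def jac (φ : (Fin n → ℝ) → Fin n → ℝ) (x : Fin n → ℝ) :
    Matrix (Fin n) (Fin n) ℝ := fun i j => pd j (fun z => φ z i) x

/-- The coordinate change between `e` and `e'` is smooth, and its Jacobian matrices have the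
property `P`. -/
def Sm (P : Matrix (Fin n) (Fin n) ℝ → Prop) (e e' : Ch n X) : Prop :=
  ∀ p x y, At e p x → At e' p y → (∀ i, Cinf (fun z => cm e e' z i) x) ∧ P (jac (cm e e') x)

/-- `c` is a holomorphic atlas, for the constant complex structure `J` of `ℝ^n`; `c a` is a chart
around `a`. -/
def Atl (J : Matrix (Fin n) (Fin n) ℝ) (c : X → Ch n X) : Prop :=
  ∀ a, (∃ x, At (c a) a x) ∧ ∀ b, Sm (fun D => D * J = J * D) (c a) (c b)

/-- `g` is a smooth Hermitian metric, `g a` being its matrix in the chart `c a`. -/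
def Herm (J : Matrix (Fin n) (Fin n) ℝ) (c : X → Ch n X)
    (g : X → (Fin n → ℝ) → Matrix (Fin n) (Fin n) ℝ) : Prop :=
  ∀ a b p x y, At (c a) p x → At (c b) p y → (∀ i j, Cinf (fun z => g a z i j) x) ∧
    (g a x).PosDef ∧ transpose J * g a x * J = g a x ∧
    g a x = transpose (jac (cm (c a) (c b)) x) * g b y * jac (cm (c a) (c b)) x

/-- The fundamental form `g(J·,·)` of the metric is closed. -/
def Kah (J : Matrix (Fin n) (Fin n) ℝ) (c : X → Ch n X)
    (g : X → (Fin n → ℝ) → Matrix (Fin n) (Fin n) ℝ) : Prop :=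
  ∀ a p x, At (c a) p x → ∀ i j k, pd i (fun y => (transpose J * g a y) j k) x +
    pd j (fun y => (transpose J * g a y) k i) x + pd k (fun y => (transpose J * g a y) i j) x = 0

/-- Christoffel symbol with upper index `k` and lower indices `i j`. -/
noncomputable def chr (g : (Fin n → ℝ) → Matrix (Fin n) (Fin n) ℝ) (x : Fin n → ℝ)
    (k i j : Fin n) : ℝ :=
  (1 / 2) * ∑ l, (g x)⁻¹ k l *
    (pd i (fun y => g y j l) x + pd j (fun y => g y i l) x - pd l (fun y => g y i j) x)

/-- Ricci tensor of `g` in coordinates. -/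
noncomputable def ric (g : (Fin n → ℝ) → Matrix (Fin n) (Fin n) ℝ) (x : Fin n → ℝ) :
    Matrix (Fin n) (Fin n) ℝ := fun i j =>
  ∑ k, (pd k (fun y => chr g y k i j) x - pd j (fun y => chr g y k i k) x)
  + ∑ k, ∑ l, (chr g x k k l * chr g x l i j - chr g x k j l * chr g x l i k)

/-- `Ric(g) ≤ -g + eta h`. -/
def RicLe (c : X → Ch n X) (g h : X → (Fin n → ℝ) → Matrix (Fin n) (Fin n) ℝ) (eta : ℝ) : Prop :=
  ∀ a p x, At (c a) p x → (eta • h a x - g a x - ric (g a) x).PosSemidef

/-- `μ` is the Riemannian volume measure of `g`. -/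
def Vol [MeasurableSpace X] (c : X → Ch n X) (g : X → (Fin n → ℝ) → Matrix (Fin n) (Fin n) ℝ)
    (μ : Measure X) : Prop :=
  ∀ a B, MeasurableSet B → μ {p | p ∈ B ∧ ∃ x, At (c a) p x} =
    ∫⁻ x, {x | ∃ p ∈ B, At (c a) p x}.indicator (fun x => ENNReal.ofReal √(g a x).det) x

/-- The scalar curvature in coordinates. -/
noncomputable def scal (g : (Fin n → ℝ) → Matrix (Fin n) (Fin n) ℝ) (x : Fin n → ℝ) : ℝ :=
  ∑ i, ∑ j, (g x)⁻¹ i j * ric g x i j

/-- The integral of `(Scal_g^- / n)^(n/2)`. -/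
noncomputable def I [MeasurableSpace X] (c : X → Ch n X)
    (g : X → (Fin n → ℝ) → Matrix (Fin n) (Fin n) ℝ) (μ : Measure X) : ENNReal :=
  ∫⁻ p, ENNReal.ofReal ((max 0 (-scal (g p) (c p p)) / n) ^ ((n : ℝ) / 2)) ∂μ

/-- Singular simplices with `k` vertices. -/
structure Simp (k : ℕ) (X : Type) [TopologicalSpace X] where
  f : stdSimplex ℝ (Fin k) → X
  cont : Continuous f

/-- The coefficient of `τ` in the singular boundary of a real singular chain `z`. -/
noncomputable def bd (z : Simp (k + 1) X →₀ ℝ) (τ : Simp k X) : ℝ :=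
  z.sum fun σ r => ∑ᶠ (i : Fin (k + 1)) (_ : ∀ t, τ.f t = σ.f (stdSimplex.map i.succAbove t)),
    (-1) ^ (i : ℕ) * r

open Classical in
/-- `z` is a cycle which represents the fundamental class: for every point `p` there are a
positively oriented affine simplex `s` (in a smooth positively oriented chart `e`) which contains
`p` in its interior, and a chain `b`, such that `z - s - ∂b` is supported on simplices which do
not meet `p`. -/
def IsFund (c : X → Ch n X) (z : Simp (n + 1) X →₀ ℝ) : Prop :=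
  (∀ τ, bd z τ = 0) ∧ ∀ p, ∃ (s : Simp (n + 1) X) (b : Simp (n + 2) X →₀ ℝ) (e : Ch n X)
    (w : Fin n → ℝ) (D : Matrix (Fin n) (Fin n) ℝ),
    (∀ a, Sm (fun D => 0 < D.det) e (c a)) ∧ 0 < D.det ∧
    (∀ t, At e (s.f t) fun j => w j + ∑ i : Fin n, t i.succ * D i j) ∧
    (∃ t, (∀ i, 0 < t i) ∧ s.f t = p) ∧
    ∀ τ, (∃ t, τ.f t = p) → z τ = bd b τ + if τ = s then 1 else 0

/-- The simplicial volume. -/
noncomputable def sv (c : X → Ch n X) : ENNReal :=
  ⨅ (z : Simp (n + 1) X →₀ ℝ) (_ : IsFund c z), ENNReal.ofReal (z.sum fun _ r => |r|)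

end Vale.Agent.P223.K
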