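import Mathlib.Algebra.GroupWithZero.Action.Pointwise.Finset
import Mathlib.Algebra.Order.Archimedean.Real.Hom
import Mathlib.Algebra.Order.Quantale
import Mathlib.Algebra.Ring.Action.Pointwise.Finset
import Mathlib.Analysis.Calculus.Deriv.Pi
import Mathlib.Analysis.Calculus.DerivativeTest
import Mathlib.Analysis.Calculus.FDeriv.Symmetric
import Mathlib.Analysis.Calculus.LineDeriv.IntegrationByParts
import Mathlib.Analysis.Convex.Contractible
import Mathlib.Analysis.Matrix.Order
import Mathlib.Geometry.Manifold.PartitionOfUnity
import Mathlib.LinearAlgebra.Complex.FiniteDimensional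
import Mathlib.LinearAlgebra.Matrix.Swap
import Mathlib.Order.CompletePartialOrder
import Mathlib.RingTheory.PicardGroup
import Mathlib.Tactic
import Mathlib.Topology.Algebra.ProperAction.Basic
import Mathlib.Topology.Homotopy.Lifting

/-! The part of Mathlib that the development of this folder uses. -/
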